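import Mathlib
import Vale.Agent.Helper20.P194Direct

/-!
# P194: Kaplansky's direct finiteness conjecture reduces to the prime fields `𝔽_p`

No stable finiteness is assumed: hypothesis and conclusion are about direct finiteness
(`a * b = 1 → b * a = 1`) of group algebras only.

For a group `G`: if the group algebra `𝔽_p[G × C]` is directly finite for every prime `p` and
every finite cyclic group `C` whose order is not divisible by `p`, then `K[G]` is directly
finite for every field `K` (of any characteristic, including `0`).

In particular, if `𝔽_p[H]` is directly finite for every prime `p` and every group `H`, then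
`K[G]` is directly finite for every field `K` and every group `G` (apply the theorem with
`H = G × C`).

Proof: for `C = GF(p^n)ˣ`, Maschke's theorem makes `GF(p^n)` a direct factor of `𝔽_p[C]`, so
`GF(p^n)[G]` is a direct factor of `𝔽_p[C][G] ≃ 𝔽_p[G × C]` and inherits direct finiteness;
finitely many coefficients of a field are then specialised to a finite field.
-/

namespace Vale.Agent.Results.P194.DirectFinitePrimeFields

universe u v

theorem result (G : Type u) [Group G]
    (h : ∀ (p : ℕ) [Fact p.Prime] (C : Type) [CommGroup C] [Finite C] [IsCyclic C],
      ¬ p ∣ Nat.card C →
        ∀ a b : MonoidAlgebra (ZMod p) (G × C), a * b = 1 → b * a = 1)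
    (K : Type v) [Field K] (a b : MonoidAlgebra K G) (hab : a * b = 1) : b * a = 1 :=
  Vale.Agent.Helper20.P194.df_of_prime_fields_cyclic G h K a b hab

end Vale.Agent.Results.P194.DirectFinitePrimeFields
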