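import Mathlib

/-!
# P194: direct finiteness of group algebras in characteristic `p` reduces to finite fields

For a group `G` and a prime `p`: if the group algebra `𝔽_{p^n}[G]` is directly finite for every
`n ≥ 1`, then `K[G]` is directly finite for every field `K` of characteristic `p`.
-/

namespace Vale.Agent.Results.P194.FiniteFieldReduction

open MonoidAlgebra

/-- Injectivity of the coefficient-wise map induced by an injective ring homomorphism. -/
theorem mapRingHom_injective {R S G : Type*} [Semiring R] [Semiring S] [Monoid G]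
    (f : R →+* S) (hf : Function.Injective f) :
    Function.Injective (MonoidAlgebra.mapRingHom G f) := by
  intro x y hxy
  apply MonoidAlgebra.coeff_injective
  ext g
  apply hf
  have := congrArg (fun z => z.coeff g) hxy
  simpa using this

/-- Every element whose coefficients lie in a subalgebra `A` comes from `A[G]`. -/
theorem exists_lift {k K G : Type*} [CommSemiring k] [Semiring K] [Algebra k K] [Monoid G]
    (A : Subalgebra k K) (a : MonoidAlgebra K G) (ha : ∀ g, a.coeff g ∈ A) :
    ∃ a' : MonoidAlgebra A G, MonoidAlgebra.mapRingHom G (A.val : A →+* K) a' = a := by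
  classical
  refine ⟨∑ g ∈ a.coeff.support, MonoidAlgebra.single g ⟨a.coeff g, ha g⟩, ?_⟩
  rw [map_sum]
  simp only [MonoidAlgebra.mapRingHom_single]
  conv_rhs => rw [← MonoidAlgebra.sum_coeff_single a]
  rfl

theorem result (G : Type*) [Group G] (p : ℕ) [Fact p.Prime]
    (hfin : ∀ n : ℕ, n ≠ 0 →
      ∀ a b : MonoidAlgebra (GaloisField p n) G, a * b = 1 → b * a = 1)
    (K : Type*) [Field K] [CharP K p] (a b : MonoidAlgebra K G) (hab : a * b = 1) :
    b * a = 1 := by
  classical
  by_contra hba
  have hne : b * a - 1 ≠ 0 := sub_ne_zero.mpr hba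
  obtain ⟨g0, hg0⟩ : ∃ g0, (b * a - 1).coeff g0 ≠ 0 := by
    by_contra h
    push Not at h
    apply hne
    apply MonoidAlgebra.coeff_injective
    ext g
    simpa using h g
  set c : K := (b * a - 1).coeff g0 with hc
  let _ : Algebra (ZMod p) K := ZMod.algebra K p
  let S : Finset K := a.coeff.support.image a.coeff ∪ b.coeff.support.image b.coeff ∪ {c⁻¹}
  let A : Subalgebra (ZMod p) K := Algebra.adjoin (ZMod p) (S : Set K)
  have hFT : Algebra.FiniteType (ZMod p) A :=
    (Subalgebra.fg_iff_finiteType _).mp (Subalgebra.fg_adjoin_finset S)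
  have ha_mem : ∀ g, a.coeff g ∈ A := by
    intro g
    by_cases h : a.coeff g = 0
    · rw [h]; exact A.zero_mem
    · apply Algebra.subset_adjoin
      simp only [S, Finset.coe_union, Finset.coe_image, Set.mem_union, Set.mem_image]
      left; left
      exact ⟨g, by simpa using h, rfl⟩
  have hb_mem : ∀ g, b.coeff g ∈ A := by
    intro g
    by_cases h : b.coeff g = 0
    · rw [h]; exact A.zero_mem
    · apply Algebra.subset_adjoin
      simp only [S, Finset.coe_union, Finset.coe_image, Set.mem_union, Set.mem_image]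
      left; right
      exact ⟨g, by simpa using h, rfl⟩
  have hcinv_mem : c⁻¹ ∈ A := by
    apply Algebra.subset_adjoin
    simp [S]
  obtain ⟨a', ha'⟩ := exists_lift A a ha_mem
  obtain ⟨b', hb'⟩ := exists_lift A b hb_mem
  set ι : A →+* K := (A.val : A →+* K) with hι
  have hιinj : Function.Injective ι := Subtype.val_injective
  have hιinj' := mapRingHom_injective (G := G) ι hιinj
  have hab' : a' * b' = 1 := by
    apply hιinj'
    rw [map_mul, ha', hb', hab, map_one]
  -- the coefficient c' of b' a' - 1 at g0 maps to c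
  set c' : A := (b' * a' - 1).coeff g0 with hc'
  have hcc' : ι c' = c := by
    have : MonoidAlgebra.mapRingHom G ι (b' * a' - 1) = b * a - 1 := by
      rw [map_sub, map_mul, ha', hb', map_one]
    rw [hc, ← this, MonoidAlgebra.coeff_mapRingHom]
  have hunit : c' * ⟨c⁻¹, hcinv_mem⟩ = 1 := by
    apply hιinj
    rw [map_mul, hcc', map_one]
    exact mul_inv_cancel₀ hg0
  -- a maximal ideal and the residue field
  obtain ⟨m, hm⟩ := Ideal.exists_maximal A
  let _ := Ideal.Quotient.field m
  have : Algebra.FiniteType (ZMod p) (A ⧸ m) :=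
    Algebra.FiniteType.of_surjective (Ideal.Quotient.mkₐ (ZMod p) m)
      (Ideal.Quotient.mkₐ_surjective (ZMod p) m)
  have : Module.Finite (ZMod p) (A ⧸ m) := finite_of_finite_type_of_isJacobsonRing (ZMod p) (A ⧸ m)
  have : Finite (A ⧸ m) := Module.finite_of_finite (ZMod p)
  have : CharP (A ⧸ m) p := charP_of_injective_algebraMap (algebraMap (ZMod p) (A ⧸ m)).injective p
  let _ := Fintype.ofFinite (A ⧸ m)
  obtain ⟨n, -, hcard⟩ := FiniteField.card (A ⧸ m) p
  have hcard' : Nat.card (A ⧸ m) = p ^ (n : ℕ) := by
    rw [Nat.card_eq_fintype_card]; exact hcard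
  let e := GaloisField.algEquivGaloisField p (n : ℕ) hcard'
  let ρ : A →+* GaloisField p n := (e : (A ⧸ m) →+* GaloisField p n).comp (Ideal.Quotient.mk m)
  have h1 : MonoidAlgebra.mapRingHom G ρ a' * MonoidAlgebra.mapRingHom G ρ b' = 1 := by
    rw [← map_mul, hab', map_one]
  have h2 := hfin n n.ne_zero _ _ h1
  have h3 : MonoidAlgebra.mapRingHom G ρ (b' * a' - 1) = 0 := by
    rw [map_sub, map_mul, h2, map_one, sub_self]
  have h4 : ρ c' = 0 := by
    rw [hc', ← MonoidAlgebra.coeff_mapRingHom, h3]
    rfl
  have h5 : ρ c' * ρ ⟨c⁻¹, hcinv_mem⟩ = 1 := by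
    rw [← map_mul, hunit, map_one]
  rw [h4, zero_mul] at h5
  exact zero_ne_one h5

end Vale.Agent.Results.P194.FiniteFieldReduction
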