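import Mathlib
import Vale.Agent.Helper20.P194Stable

/-!
# P194: Kaplansky's stable finiteness conjecture in characteristic `p` reduces to the prime field

For a group `G` and a prime `p`: if the group algebra `𝔽_p[G]` over the prime field is stably
finite (every matrix ring over it is directly finite), then for every field `K` of
characteristic `p` the group algebra `K[G]` is stably finite, and in particular directly finite.

`IsStablyFiniteRing R` is Mathlib's class: for every `n`, `a * b = 1 → b * a = 1` in the ring of
`n × n` matrices over `R`.
-/

namespace Vale.Agent.Results.P194.PrimeFieldStable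

theorem result (G : Type*) [Group G] (p : ℕ) [Fact p.Prime]
    (h : IsStablyFiniteRing (MonoidAlgebra (ZMod p) G))
    (K : Type*) [Field K] [CharP K p] :
    IsStablyFiniteRing (MonoidAlgebra K G) ∧
      ∀ a b : MonoidAlgebra K G, a * b = 1 → b * a = 1 := by
  have hK : IsStablyFiniteRing (MonoidAlgebra K G) :=
    Vale.Agent.Helper20.P194.stablyFinite_of_prime_field G p h K
  exact ⟨hK, fun a b hab => mul_eq_one_symm hab⟩

end Vale.Agent.Results.P194.PrimeFieldStable
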